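import Vale.Agent.P097.H323.D2.Defs

/-! # P097 / Disc / D2 : elementary number theory (helper323) -/

set_option linter.all false

namespace Vale.Agent.P097.D2

theorem th : TH := by
  intro N u hN hu
  haveI : NeZero N := ⟨by omega⟩
  set k := Nat.sqrt N with hk
  have hk1 : k * k ≤ N := Nat.sqrt_le N
  have hk2 : N < (k + 1) * (k + 1) := Nat.lt_succ_sqrt N
  have hkN : k < N := by
    by_contra h
    push Not at h
    have : N * N ≤ k * k := Nat.mul_le_mul h h
    nlinarith
  let F : Fin (k + 1) × Fin (k + 1) → ZMod N := fun a => (u : ZMod N) * ((a.1 : ℕ) : ZMod N) - ((a.2 : ℕ) : ZMod N)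
  have hF : ¬ Function.Injective F := by
    intro h
    have := Fintype.card_le_of_injective F h
    rw [Fintype.card_prod, Fintype.card_fin, ZMod.card] at this
    omega
  simp only [Function.Injective, not_forall] at hF
  obtain ⟨⟨i, j⟩, ⟨i', j'⟩, h1, h2⟩ := hF
  have h3 : (N : ℤ) ∣ (u : ℤ) * ((i : ℕ) - (i' : ℕ) : ℤ) - ((j : ℕ) - (j' : ℕ) : ℤ) := by
    rw [← ZMod.intCast_zmod_eq_zero_iff_dvd]
    simp only [F] at h1
    push_cast
    linear_combination h1
  set x : ℤ := ((i : ℕ) - (i' : ℕ) : ℤ) with hx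
  set y : ℤ := ((j : ℕ) - (j' : ℕ) : ℤ) with hy
  have hi := i.2
  have hi' := i'.2
  have hj := j.2
  have hj' := j'.2
  have hxk : x.natAbs ≤ k := by omega
  have hyk : y.natAbs ≤ k := by omega
  have hx0 : x ≠ 0 := by
    intro h0
    rw [h0, mul_zero, zero_sub, dvd_neg] at h3
    have hy0 : y = 0 := by
      apply Int.eq_zero_of_abs_lt_dvd h3
      rw [Int.abs_eq_natAbs]
      exact_mod_cast lt_of_le_of_lt hyk hkN
    apply h2
    have e1 : (i : ℕ) = i' := by omega
    have e2 : (j : ℕ) = j' := by omega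
    exact Prod.ext (Fin.ext e1) (Fin.ext e2)
  have hy0 : y ≠ 0 := by
    intro h0
    rw [h0, sub_zero] at h3
    have h4 : (N : ℤ) ∣ x := by
      have : IsCoprime (N : ℤ) (u : ℤ) := by
        rw [Nat.isCoprime_iff_coprime]
        exact hu.symm
      exact this.dvd_of_dvd_mul_left h3
    apply hx0
    apply Int.eq_zero_of_abs_lt_dvd h4
    rw [Int.abs_eq_natAbs]
    exact_mod_cast lt_of_le_of_lt hxk hkN
  refine ⟨x.natAbs, y.natAbs, Int.natAbs_pos.2 hx0, Int.natAbs_pos.2 hy0,
    (Nat.mul_le_mul hxk hxk).trans hk1, (Nat.mul_le_mul hyk hyk).trans hk1, ?_⟩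
  rcases le_or_gt 0 x with hxs | hxs <;> rcases le_or_gt 0 y with hys | hys
  · left
    have : ((x.natAbs : ℕ) : ℤ) = x := by omega
    have h' : ((y.natAbs : ℕ) : ℤ) = y := by omega
    apply Nat.ModEq.symm
    rw [← Int.natCast_modEq_iff, Int.modEq_iff_dvd]
    push_cast
    rw [abs_of_nonneg hxs, abs_of_nonneg hys]
    exact h3
  · right
    rw [← Int.natCast_modEq_iff]
    apply Int.ModEq.symm
    rw [Int.modEq_iff_dvd]
    push_cast
    rw [abs_of_nonneg hxs, abs_of_neg hys]
    simpa [sub_eq_add_neg] using h3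
  · right
    rw [← Int.natCast_modEq_iff]
    apply Int.ModEq.symm
    rw [Int.modEq_iff_dvd]
    push_cast
    rw [abs_of_neg hxs, abs_of_nonneg hys]
    have := dvd_neg.2 h3
    have e : (((u : ℤ) * -x + y) - 0) = -((u : ℤ) * x - y) := by ring
    rw [e]
    exact this
  · left
    apply Nat.ModEq.symm
    rw [← Int.natCast_modEq_iff, Int.modEq_iff_dvd]
    push_cast
    rw [abs_of_neg hxs, abs_of_neg hys]
    have := dvd_neg.2 h3
    have e : ((u : ℤ) * -x - -y) = -((u : ℤ) * x - y) := by ring
    rw [e]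
    exact this

/-- a large number has a large prime power factor -/
theorem exists_large (B N : ℕ) (hB : 1 ≤ B) (hN : B ^ B < N) :
    ∃ q : ℕ, q.Prime ∧ q ∣ N ∧ B ≤ q ^ N.factorization q := by
  by_contra h
  push Not at h
  have hN0 : N ≠ 0 := by omega
  have h1 : N = ∏ q ∈ N.primeFactors, q ^ N.factorization q := by
    conv_lhs => rw [← Nat.factorization_prod_pow_eq_self hN0]
    rw [Finsupp.prod, Nat.support_factorization]
  have h2 : ∏ q ∈ N.primeFactors, q ^ N.factorization q ≤ ∏ q ∈ N.primeFactors, B := by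
    apply Finset.prod_le_prod'
    intro q hq
    exact (h q (Nat.prime_of_mem_primeFactors hq) (Nat.dvd_of_mem_primeFactors hq)).le
  rw [Finset.prod_const] at h2
  have h3 : N.primeFactors.card ≤ B := by
    have : N.primeFactors ⊆ Finset.range B := by
      intro q hq
      rw [Finset.mem_range]
      have hp := Nat.prime_of_mem_primeFactors hq
      have hd := Nat.dvd_of_mem_primeFactors hq
      refine lt_of_le_of_lt ?_ (h q hp hd)
      have : 1 ≤ N.factorization q := (Nat.Prime.dvd_iff_one_le_factorization hp hN0).1 hd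
      calc q = q ^ 1 := (pow_one q).symm
        _ ≤ q ^ N.factorization q := Nat.pow_le_pow_right hp.pos this
    simpa using Finset.card_le_card this
  have h4 : B ^ N.primeFactors.card ≤ B ^ B := Nat.pow_le_pow_right hB h3
  omega

theorem nt : NT := by
  intro f ε hf hε
  obtain ⟨C, hC⟩ := exists_nat_gt (2 / ε)
  have hC0 : 0 < C := by
    have : (0 : ℝ) < 2 / ε := by positivity
    exact_mod_cast this.trans hC
  have hCε : 2 < ε * C := by
    rw [div_lt_iff₀ hε] at hC
    linarith
  set B := C * C * f * 2 with hB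
  have hB1 : 1 ≤ B := Nat.mul_pos (Nat.mul_pos (Nat.mul_pos hC0 hC0) hf) (by norm_num)
  refine ⟨B ^ B + 1, fun N hN j hj => ?_⟩
  have hN0 : N ≠ 0 := by omega
  have hNpos : 0 < N := Nat.pos_of_ne_zero hN0
  obtain ⟨q, hq, hqN, hqB⟩ := exists_large B N hB1 (by omega)
  set e := N.factorization q with he
  have he1 : 1 ≤ e := (Nat.Prime.dvd_iff_one_le_factorization hq hN0).1 hqN
  set M := N / q ^ e with hM
  have hMN : q ^ e * M = N := Nat.ordProj_mul_ordCompl_eq_self N q
  have hM0 : 0 < M := Nat.pos_of_ne_zero (by rintro h; rw [h] at hMN; omega)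
  have hMq : Nat.Coprime q M := Nat.coprime_ordCompl hq hN0
  set v := f.factorization q with hv
  have hqv : q ^ v ∣ f := Nat.ordProj_dvd f q
  have hqvf : q ^ v ≤ f := Nat.le_of_dvd hf hqv
  set w := max v 1 with hw
  -- case A
  by_cases hA : w ≤ e ∧ C ≤ q ^ (e - w)
  · obtain ⟨hwe, hCw⟩ := hA
    set N' := q ^ w * M with hN'
    have hNN' : N = q ^ (e - w) * N' := by
      rw [hN', ← mul_assoc, ← pow_add, Nat.sub_add_cancel hwe, hMN]
    have hqw : 1 ≤ w := le_max_right _ _
    have hN'2 : 2 ≤ N' := by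
      calc 2 ≤ q := hq.two_le
        _ = q ^ 1 := (pow_one q).symm
        _ ≤ q ^ w := Nat.pow_le_pow_right hq.pos hqw
        _ = q ^ w * 1 := (mul_one _).symm
        _ ≤ q ^ w * M := Nat.mul_le_mul_left _ hM0
    have hjN' : Nat.Coprime j N' := Nat.Coprime.coprime_dvd_right ⟨q ^ (e - w), by rw [hNN']; ring⟩ hj
    have hpN' : Nat.Coprime (j % N') N' := by
      rw [Nat.coprime_iff_gcd_eq_one, ← Nat.gcd_rec, Nat.gcd_comm]
      exact hjN'
    refine ⟨j % N', ?_, ?_, ?_, ?_⟩
    · rcases Nat.eq_zero_or_pos (j % N') with h0 | h0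
      · rw [h0, Nat.coprime_zero_left] at hpN'
        omega
      · exact h0
    · have h1 : ((j % N' : ℕ) : ℝ) < N' := by exact_mod_cast Nat.mod_lt _ (by omega)
      have h2 : (C : ℝ) * N' ≤ N := by
        have : C * N' ≤ N := by
          conv_rhs => rw [hNN']
          exact Nat.mul_le_mul_right _ hCw
        exact_mod_cast this
      have h3 : (0 : ℝ) < N' := by exact_mod_cast (by omega : 0 < N')
      have h4 : ε * (C * N') ≤ ε * N := mul_le_mul_of_nonneg_left h2 hε.le
      nlinarith
    · rw [hNN', hN']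
      have c1 : Nat.Coprime (j % N') (q ^ w) := Nat.Coprime.coprime_dvd_right (dvd_mul_right _ _) hpN'
      have c2 : Nat.Coprime (j % N') M := Nat.Coprime.coprime_dvd_right (dvd_mul_left _ _) hpN'
      have c3 : Nat.Coprime (j % N') q := by
        refine Nat.Coprime.coprime_dvd_right ?_ c1
        exact dvd_pow_self q (by omega)
      exact Nat.Coprime.mul_right (Nat.Coprime.pow_right _ c3) (Nat.Coprime.mul_right c1 c2)
    · have hg : Nat.gcd N f ∣ N' := by
        -- q-part of gcd divides q ^ v, rest divides M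
        have hgc : Nat.gcd N f ∣ q ^ e * M := by rw [hMN]; exact Nat.gcd_dvd_left _ _
        have hfv : f = q ^ v * (f / q ^ v) := (Nat.ordProj_mul_ordCompl_eq_self f q).symm
        have hfc : Nat.Coprime q (f / q ^ v) := Nat.coprime_ordCompl hq (by omega)
        have hgf : Nat.gcd N f ∣ q ^ v * (f / q ^ v) := by rw [← hfv]; exact Nat.gcd_dvd_right _ _
        -- gcd = a * b with a | q^e etc
        obtain ⟨a, b, ha, hb, hab⟩ := exists_dvd_and_dvd_of_dvd_mul hgc
        have ha' : a ∣ q ^ v := by
          have h1 : a ∣ q ^ v * (f / q ^ v) := (Dvd.intro b hab.symm).trans hgf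
          have h2 : Nat.Coprime a (f / q ^ v) := Nat.Coprime.coprime_dvd_left ha (Nat.Coprime.pow_left _ hfc)
          exact h2.dvd_of_dvd_mul_right h1
        rw [hab, hN']
        exact mul_dvd_mul (ha'.trans (pow_dvd_pow q (le_max_left _ _))) hb
      exact (Nat.mod_modEq j N').of_dvd hg
  · -- case B
    have hv0 : v = 0 := by
      by_contra hvne
      have hw' : w = v := max_eq_left (by omega)
      rw [hw'] at hA
      apply hA
      have hve : v ≤ e := by
        by_contra hlt
        push Not at hlt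
        have : q ^ e ≤ q ^ v := Nat.pow_le_pow_right hq.pos hlt.le
        have h1 : B ≤ f := hqB.trans (this.trans hqvf)
        have h2 : f * 2 ≤ B := by
          rw [hB]
          nlinarith [Nat.mul_pos hC0 hC0]
        omega
      refine ⟨hve, ?_⟩
      by_contra hlt
      push Not at hlt
      have h1 : q ^ e = q ^ (e - v) * q ^ v := by rw [← pow_add, Nat.sub_add_cancel hve]
      have h2 : q ^ e < C * f := by
        rw [h1]
        calc q ^ (e - v) * q ^ v < C * q ^ v := Nat.mul_lt_mul_of_pos_right hlt (pow_pos hq.pos _)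
          _ ≤ C * f := Nat.mul_le_mul_left _ hqvf
      have h3 : C * f ≤ B := by
        rw [hB]
        calc C * f = C * 1 * f := by ring
          _ ≤ C * C * f := Nat.mul_le_mul_right _ (Nat.mul_le_mul_left _ hC0)
          _ ≤ C * C * f * 2 := by omega
      omega
    have hw' : w = 1 := by rw [hw, hv0]; rfl
    rw [hw'] at hA
    have he : e = 1 := by
      by_contra hne
      have he2 : 2 ≤ e := by omega
      apply hA
      refine ⟨he1, ?_⟩
      by_contra hlt
      push Not at hlt
      have h1 : q ≤ q ^ (e - 1) := by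
        calc q = q ^ 1 := (pow_one q).symm
          _ ≤ q ^ (e - 1) := Nat.pow_le_pow_right hq.pos (by omega)
      have h2 : q ^ e = q ^ (e - 1) * q := by
        rw [← pow_succ, Nat.sub_add_cancel he1]
      have h3 : q ^ e < C * C := by
        rw [h2]
        calc q ^ (e - 1) * q ≤ q ^ (e - 1) * q ^ (e - 1) := Nat.mul_le_mul_left _ h1
          _ < C * C := Nat.mul_self_lt_mul_self hlt
      have h4 : C * C ≤ B := by
        rw [hB]
        calc C * C = C * C * 1 := by ring
          _ ≤ C * C * f := Nat.mul_le_mul_left _ hf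
          _ ≤ C * C * f * 2 := by omega
      omega
    have hqf : ¬ q ∣ f := by
      intro h
      have := (Nat.Prime.dvd_iff_one_le_factorization hq (by omega)).1 h
      omega
    rw [he, pow_one] at hMN hqB
    have hMq' : ¬ q ∣ M := fun h => by
      have := Nat.Coprime.eq_one_of_dvd hMq h
      exact hq.one_lt.ne' this
    have hjM : Nat.Coprime j M := Nat.Coprime.coprime_dvd_right ⟨q, by rw [← hMN]; ring⟩ hj
    have hpM : Nat.Coprime (j % M) M := by
      rw [Nat.coprime_iff_gcd_eq_one, ← Nat.gcd_rec, Nat.gcd_comm]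
      exact hjM
    have hg : Nat.gcd N f ∣ M := by
      have h1 : Nat.gcd N f ∣ q * M := by rw [hMN]; exact Nat.gcd_dvd_left _ _
      have h2 : Nat.Coprime (Nat.gcd N f) q := by
        rw [Nat.coprime_comm, Nat.Prime.coprime_iff_not_dvd hq]
        exact fun h => hqf (h.trans (Nat.gcd_dvd_right _ _))
      exact h2.dvd_of_dvd_mul_left h1
    have key : ∃ p : ℕ, p < 2 * M ∧ Nat.Coprime p M ∧ p ≡ j [MOD M] ∧ ¬ q ∣ p := by
      by_cases hd : q ∣ j % M
      · refine ⟨j % M + M, ?_, ?_, ?_, ?_⟩
        · have := Nat.mod_lt j hM0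
          omega
        · simpa using hpM
        · have := Nat.mod_modEq j M
          simpa [Nat.ModEq] using this
        · intro h
          exact hMq' ((Nat.dvd_add_right hd).1 h)
      · exact ⟨j % M, by have := Nat.mod_lt j hM0; omega, hpM, Nat.mod_modEq j M, hd⟩
    obtain ⟨p, hp1, hp2, hp3, hp4⟩ := key
    refine ⟨p, ?_, ?_, ?_, hp3.of_dvd hg⟩
    · rcases Nat.eq_zero_or_pos p with h | h
      · rw [h] at hp4
        exact absurd (dvd_zero q) hp4
      · exact h
    · have h1 : (p : ℝ) < 2 * M := by exact_mod_cast hp1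
      have h2 : (C : ℝ) * M ≤ N := by
        have : C * M ≤ N := by
          rw [← hMN]
          refine Nat.mul_le_mul_right _ (le_trans ?_ hqB)
          rw [hB]
          calc C = C * 1 * 1 := by ring
            _ ≤ C * C * f := Nat.mul_le_mul (Nat.mul_le_mul_left _ hC0) hf
            _ ≤ C * C * f * 2 := by omega
        exact_mod_cast this
      have h3 : (0 : ℝ) < M := by exact_mod_cast hM0
      have h4 : ε * (C * M) ≤ ε * N := mul_le_mul_of_nonneg_left h2 hε.le
      nlinarith
    · rw [← hMN]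
      refine Nat.Coprime.mul_right ?_ hp2
      rw [Nat.coprime_comm, Nat.Prime.coprime_iff_not_dvd hq]
      exact hp4

end Vale.Agent.P097.D2
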