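import Vale.Agent.P097.H323.D2.Tr
import Vale.Agent.P097.H323.D2.NT

/-! # P097 / Disc / D2 : assembly (helper323) -/

set_option linter.all false

open Polynomial

namespace Vale.Agent.P097.D2

open Vale.Agent.P097.Disc Vale.Agent.P097.H896.D3

/-- [BC] (896) base change of the label along `K ⊆ ℂ` -/
def BC : Prop :=
  ∀ K : Subfield ℂ, ∃ bc : RatFunc K →+* RatFunc ℂ,
    (∀ f : K[X], bc (algebraMap K[X] (RatFunc K) f) = algebraMap ℂ[X] (RatFunc ℂ) (f.map K.subtype)) ∧
    ∀ (a : ℕ → K) (Q : ℕ → RatFunc K), a 0 = 1 → IsLabel a Q →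
      IsLabel (fun n => (a n : ℂ)) (fun n => bc (Q n))

/-- [POLE] (896) -/
def POLE : Prop :=
  ∀ (a : ℕ → ℂ) (Q : ℕ → RatFunc ℂ), a 0 = 1 → IsLabel a Q → ∀ (i : ℕ) (c : ℂ), ¬ RegAt (Q i) c →
    ∃ x : ℂ, x ≠ 0 ∧ c = (x + x⁻¹) / 2 ∧ ∃ m, 1 ≤ m ∧ x ^ (2 * m) = 1

/-- the angle -/
noncomputable def cc (p n : ℕ) : ℂ := (Real.cos (Real.pi * p / n) : ℂ)

theorem exp_half (t : ℝ) :
    (Complex.exp (Complex.I * t) + (Complex.exp (Complex.I * t))⁻¹) / 2 = (Real.cos t : ℂ) := by
  rw [← Complex.exp_neg, Complex.ofReal_cos, Complex.cos]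
  congr 2
  · rw [mul_comm]
  · rw [mul_comm, neg_mul]

theorem reg_cc (hREG : REG) {a : ℕ → ℂ} {Q : ℕ → RatFunc ℂ} {η : ℝ} (h0 : a 0 = 1) (h1 : a 1 = 0)
    (hQ : IsLabel a Q) (hη : 0 < η) (hη2 : η ≤ 1 / 2)
    (hO : ∀ p n : ℕ, 0 < p → 0 < n → (p : ℝ) / n < η → ∀ r,
      Orb a (Complex.exp (Complex.I * (Real.pi * p / n))) n r)
    (p n : ℕ) (hp : 0 < p) (hn : 0 < n) (hpn : (p : ℝ) / n < η) (i : ℕ) : RegAt (Q i) (cc p n) := by
  have hn' : (n : ℂ) ≠ 0 := by exact_mod_cast hn.ne'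
  have hnr : (0 : ℝ) < n := by exact_mod_cast hn
  have hpr : (0 : ℝ) < p := by exact_mod_cast hp
  have e1 : Complex.exp (Complex.I * (Real.pi * p / n)) ^ (2 * n) = 1 := by
    rw [← Complex.exp_nat_mul]
    have : ((2 * n : ℕ) : ℂ) * (Complex.I * (Real.pi * p / n)) = (p : ℤ) * (2 * Real.pi * Complex.I) := by
      push_cast
      field_simp
    rw [this]
    exact Complex.exp_int_mul_two_pi_mul_I p
  have e2 : Complex.exp (Complex.I * (Real.pi * p / n)) ^ 2 ≠ 1 := by
    rw [← Complex.exp_nat_mul]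
    intro h
    rw [Complex.exp_eq_one_iff] at h
    obtain ⟨k, hk⟩ := h
    have h2 : ((p : ℝ) / n : ℂ) = k := by
      have hpi : (Real.pi : ℂ) ≠ 0 := by exact_mod_cast Real.pi_ne_zero
      have h3 : (2 * Real.pi * Complex.I : ℂ) ≠ 0 := by
        simp [hpi]
      apply mul_right_cancel₀ h3
      rw [← hk]
      push_cast
      field_simp
    have h3 : ((p : ℝ) / n) = (k : ℝ) := by exact_mod_cast h2
    have h4 : (0 : ℝ) < k := by rw [← h3]; positivity
    have h5 : (k : ℝ) < 1 := by rw [← h3]; linarith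
    have h6 : (0 : ℤ) < k := by exact_mod_cast h4
    have h7 : (k : ℤ) < 1 := by exact_mod_cast h5
    omega
  have h := hREG a Q h0 h1 hQ _ n hn e1 e2 (hO p n hp hn hpn) i
  have e3 : (Complex.I * (Real.pi * p / n) : ℂ) = Complex.I * ((Real.pi * p / n : ℝ) : ℂ) := by
    push_cast; ring
  rw [e3, exp_half] at h
  exact h

theorem Un_cc (m p : ℕ) (hp : 0 < p) (hpm : p < m + 1) :
    (Un (K := ℂ) m).eval (cc p (m + 1)) = 0 := by
  have h := Polynomial.Chebyshev.U_complex_cos ((Real.pi * p / (m + 1 : ℕ) : ℝ) : ℂ) (m : ℤ)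
  have hm : ((m + 1 : ℕ) : ℝ) ≠ 0 := by positivity
  have e1 : Complex.sin (((m : ℤ) + 1) * ((Real.pi * p / (m + 1 : ℕ) : ℝ) : ℂ)) = 0 := by
    have : (((m : ℤ) : ℂ) + 1) * ((Real.pi * p / (m + 1 : ℕ) : ℝ) : ℂ) = ((p : ℕ) : ℂ) * Real.pi := by
      have hm' : ((m : ℂ) + 1) ≠ 0 := by exact_mod_cast (Nat.succ_ne_zero m)
      push_cast
      field_simp
    rw [this]
    exact Complex.sin_nat_mul_pi p
  rw [e1] at h
  have e2 : Complex.sin ((Real.pi * p / (m + 1 : ℕ) : ℝ) : ℂ) ≠ 0 := by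
    rw [← Complex.ofReal_sin]
    have : 0 < Real.sin (Real.pi * p / (m + 1 : ℕ)) := by
      apply Real.sin_pos_of_pos_of_lt_pi
      · have : (0 : ℝ) < p := by exact_mod_cast hp
        positivity
      · rw [div_lt_iff₀ (by positivity)]
        have : (p : ℝ) < (m + 1 : ℕ) := by exact_mod_cast hpm
        exact mul_lt_mul_of_pos_left this Real.pi_pos
    exact_mod_cast this.ne'
  have h3 := (mul_eq_zero.1 h).resolve_right e2
  rw [cc, Complex.ofReal_cos]
  exact h3

theorem mem_closure (hF2 : F2) (hBC : BC) (hREG : REG) {a : ℕ → ℂ} {Q : ℕ → RatFunc ℂ} {η : ℝ}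
    (h0 : a 0 = 1) (h1 : a 1 = 0) (hQ : IsLabel a Q) (hη : 0 < η) (hη2 : η ≤ 1 / 2)
    (hreg : ∀ (p n : ℕ), 0 < p → 0 < n → (p : ℝ) / n < η → ∀ i : ℕ, RegAt (Q i) (cc p n))
    (K : Subfield ℂ) (n₁ : ℕ) (hn₁ : 2 / η ^ 2 < n₁) (hK : ∀ i ≤ n₁, a i ∈ K) : ∀ m, a m ∈ K := by
  intro m
  induction m using Nat.strong_induction_on with
  | _ m ih =>
    by_cases hm : m ≤ n₁
    · exact hK m hm
    push Not at hm
    obtain ⟨m, rfl⟩ : ∃ m', m = m' + 1 := ⟨m - 1, by omega⟩
    classical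
    let a' : ℕ → K := fun i => if h : i < m + 1 then ⟨a i, ih i h⟩ else 0
    have ha'0 : a' 0 = 1 := by
      simp only [a', Nat.succ_pos, dif_pos]
      exact Subtype.ext h0
    obtain ⟨bc, hbc, hlab⟩ := hBC K
    have hL := hlab a' _ ha'0 (isLabel_lab ha'0)
    set QK := lab ha'0 with hQK
    have hagree : ∀ i < m + 1, a i = ((a' i : K) : ℂ) := by
      intro i hi
      simp only [a', dif_pos hi]
    have hcplx0 : ((a' 0 : K) : ℂ) = 1 := by rw [ha'0]; rfl
    have hdiff := label_diff (a' := fun i => ((a' i : K) : ℂ)) h0 hcplx0 hagree hQ hL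
    have hlast : ((a' (m + 1) : K) : ℂ) = 0 := by
      simp only [a', lt_irrefl, dif_neg, not_false_eq_true]
      rfl
    rw [hlast, sub_zero] at hdiff
    set w : ℂ := ((m + 1 : ℕ) : ℂ) * a (m + 1) with hw
    set V : RatFunc K := QK (m + 1) * algebraMap K[X] (RatFunc K) (Un m) with hV
    have hUmap : (Un (K := K) m).map K.subtype = Un (K := ℂ) m := by
      simp [Un, Polynomial.Chebyshev.map_U]
    have hbV : bc V = Q (m + 1) * algebraMap ℂ[X] (RatFunc ℂ) (Un m) + RatFunc.C w := by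
      rw [hV, map_mul, hbc, hUmap]
      linear_combination -hdiff
    have hwK : w ∈ K := by
      apply hF2 K (m + 1) (by omega) V.num V.denom (RatFunc.isCoprime_num_denom V) w
      intro p hp hpm
      have hηp : (p : ℝ) / (m + 1 : ℕ) < η := by
        have hm0 : (0 : ℝ) < (m + 1 : ℕ) := by positivity
        have h2 : 2 / η ^ 2 < (m + 1 : ℕ) := hn₁.trans (by exact_mod_cast hm)
        have h3 : 2 < (m + 1 : ℕ) * η ^ 2 := by
          rwa [div_lt_iff₀ (by positivity)] at h2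
        have h4 : (p : ℝ) * p ≤ 2 * (m + 1 : ℕ) := by exact_mod_cast hpm
        rw [div_lt_iff₀ hm0]
        by_contra hcon
        push Not at hcon
        have h5 : (η * (m + 1 : ℕ)) * (η * (m + 1 : ℕ)) ≤ p * p :=
          mul_self_le_mul_self (by positivity) hcon
        nlinarith
      have hpm' : p < m + 1 := by
        have hm0 : (0 : ℝ) < (m + 1 : ℕ) := by positivity
        rw [div_lt_iff₀ hm0] at hηp
        have : (p : ℝ) < (m + 1 : ℕ) := by nlinarith
        exact_mod_cast this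
      have hr := hreg p (m + 1) hp (by omega) hηp (m + 1)
      set c := cc p (m + 1) with hc
      have hU0 : (Un (K := ℂ) m).eval c = 0 := Un_cc m p hp hpm'
      -- the polynomial identity
      have hden : algebraMap ℂ[X] (RatFunc ℂ) (Q (m + 1)).denom ≠ 0 :=
        RatFunc.algebraMap_ne_zero (RatFunc.denom_ne_zero _)
      have hdenV : algebraMap ℂ[X] (RatFunc ℂ) (V.denom.map K.subtype) ≠ 0 := by
        apply RatFunc.algebraMap_ne_zero
        rw [Polynomial.map_ne_zero_iff K.subtype.injective]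
        exact RatFunc.denom_ne_zero _
      have e1 : bc V * algebraMap ℂ[X] (RatFunc ℂ) (V.denom.map K.subtype) =
          algebraMap ℂ[X] (RatFunc ℂ) (V.num.map K.subtype) := by
        rw [← hbc, ← hbc, ← map_mul]
        congr 1
        nth_rw 1 [← RatFunc.num_div_denom V]
        rw [div_mul_cancel₀]
        exact RatFunc.algebraMap_ne_zero (RatFunc.denom_ne_zero _)
      have e2 : Q (m + 1) * algebraMap ℂ[X] (RatFunc ℂ) (Q (m + 1)).denom =
          algebraMap ℂ[X] (RatFunc ℂ) (Q (m + 1)).num := by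
        nth_rw 1 [← RatFunc.num_div_denom (Q (m + 1))]
        rw [div_mul_cancel₀ _ hden]
      have e3 : V.num.map K.subtype * (Q (m + 1)).denom =
          V.denom.map K.subtype * ((Q (m + 1)).num * Un m + Polynomial.C w * (Q (m + 1)).denom) := by
        apply RatFunc.algebraMap_injective ℂ
        simp only [map_mul, map_add]
        rw [← e1, ← e2, hbV, RatFunc.algebraMap_C]
        ring
      have e4 := congrArg (Polynomial.eval c) e3
      simp only [Polynomial.eval_mul, Polynomial.eval_add, Polynomial.eval_C, hU0, mul_zero, zero_add,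
        Polynomial.eval_map] at e4
      have e5 : (V.num.eval₂ K.subtype c) = w * (V.denom.eval₂ K.subtype c) := by
        apply mul_right_cancel₀ hr
        linear_combination e4
      exact e5
    have hm1 : ((m + 1 : ℕ) : ℂ) ≠ 0 := by exact_mod_cast Nat.succ_ne_zero m
    have : a (m + 1) = w / ((m + 1 : ℕ) : ℂ) := by
      rw [hw]; field_simp
    rw [this]
    exact K.div_mem hwK (natCast_mem K (m + 1))

theorem bc_denom {K : Subfield ℂ} {bc : RatFunc K →+* RatFunc ℂ}
    (hbc : ∀ f : K[X], bc (algebraMap K[X] (RatFunc K) f) = algebraMap ℂ[X] (RatFunc ℂ) (f.map K.subtype))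
    (r : RatFunc K) (c : ℂ) : (bc r).denom.eval c = 0 ↔ Polynomial.aeval c r.denom = 0 := by
  have hden : algebraMap ℂ[X] (RatFunc ℂ) (bc r).denom ≠ 0 :=
    RatFunc.algebraMap_ne_zero (RatFunc.denom_ne_zero _)
  have e1 : bc r * algebraMap ℂ[X] (RatFunc ℂ) (r.denom.map K.subtype) =
      algebraMap ℂ[X] (RatFunc ℂ) (r.num.map K.subtype) := by
    rw [← hbc, ← hbc, ← map_mul]
    congr 1
    nth_rw 1 [← RatFunc.num_div_denom r]
    rw [div_mul_cancel₀]
    exact RatFunc.algebraMap_ne_zero (RatFunc.denom_ne_zero _)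
  have e2 : bc r * algebraMap ℂ[X] (RatFunc ℂ) (bc r).denom =
      algebraMap ℂ[X] (RatFunc ℂ) (bc r).num := by
    nth_rw 1 [← RatFunc.num_div_denom (bc r)]
    rw [div_mul_cancel₀ _ hden]
  have e3 : r.num.map K.subtype * (bc r).denom = (bc r).num * r.denom.map K.subtype := by
    apply RatFunc.algebraMap_injective ℂ
    simp only [map_mul]
    rw [← e1, ← e2]
    ring
  have e4 := congrArg (Polynomial.eval c) e3
  simp only [Polynomial.eval_mul, Polynomial.eval_map] at e4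
  have hA : Polynomial.aeval c r.denom = r.denom.eval₂ K.subtype c := rfl
  have c1 : IsCoprime (r.num.map K.subtype) (r.denom.map K.subtype) :=
    (RatFunc.isCoprime_num_denom r).map (Polynomial.mapRingHom K.subtype)
  have c2 := RatFunc.isCoprime_num_denom (bc r)
  rw [hA]
  constructor
  · intro h
    rw [h, mul_zero] at e4
    rcases mul_eq_zero.1 e4.symm with h5 | h5
    · exfalso
      obtain ⟨u, v, huv⟩ := c2
      have := congrArg (Polynomial.eval c) huv
      simp [h, h5] at this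
    · exact h5
  · intro h
    rw [h, mul_zero] at e4
    rcases mul_eq_zero.1 e4 with h5 | h5
    · exfalso
      obtain ⟨u, v, huv⟩ := c1
      have := congrArg (Polynomial.eval c) huv
      simp [h, h5, Polynomial.eval_map] at this
    · exact h5

/-- **Block [D2].** -/
theorem d2_of (hF1 : F1) (hF2 : F2) (hBC : BC) (hPOLE : POLE) (hREG : REG) : Disc.D2 := by
  intro a Q η h0 h1 hQ hη hη2 hO
  have hreg : ∀ (p n : ℕ), 0 < p → 0 < n → (p : ℝ) / n < η → ∀ i : ℕ, RegAt (Q i) (cc p n) :=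
    fun p n hp hn hpn i => reg_cc hREG h0 h1 hQ hη hη2 hO p n hp hn hpn i
  obtain ⟨n₁, hn₁⟩ := exists_nat_gt (2 / η ^ 2)
  classical
  set T : Finset ℂ := (Finset.range (n₁ + 1)).image a with hT
  set K : Subfield ℂ := Subfield.closure (T : Set ℂ) with hK
  have hKi : ∀ i ≤ n₁, a i ∈ K := by
    intro i hi
    apply Subfield.subset_closure
    rw [hT, Finset.coe_image]
    exact ⟨i, by simpa using Nat.lt_succ_of_le hi, rfl⟩
  have hmem : ∀ m, a m ∈ K := mem_closure hF2 hBC hREG h0 h1 hQ hη hη2 hreg K n₁ hn₁ hKi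
  obtain ⟨bc, hbc, hlab⟩ := hBC K
  let aK : ℕ → K := fun m => ⟨a m, hmem m⟩
  have haK0 : aK 0 = 1 := Subtype.ext h0
  have hL := hlab aK _ haK0 (isLabel_lab haK0)
  set QK := lab haK0 with hQK
  have hQeq : (fun n => bc (QK n)) = Q := isLabel_unique h0 hQ hL
  obtain ⟨f, hf, hF⟩ := hF1 T
  obtain ⟨N₀, hN₀⟩ := nt f (η / 2) hf (by positivity)
  refine ⟨(Finset.range N₀).biUnion fun k =>
    (Polynomial.nthRoots k (1 : ℂ)).toFinset.image fun x => (x + x⁻¹) / 2, ?_⟩
  intro c hc i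
  by_contra hnot
  obtain ⟨x, hx0, hcx, m, hm, hxm⟩ := hPOLE a Q h0 hQ i c hnot
  have hfin : 0 < orderOf x := by
    rw [orderOf_pos_iff, isOfFinOrder_iff_pow_eq_one]
    exact ⟨2 * m, by omega, hxm⟩
  set N := orderOf x with hN
  have hxN : x ^ N = 1 := pow_orderOf_eq_one x
  have hprim : IsPrimitiveRoot x N := IsPrimitiveRoot.orderOf x
  have hNN : N₀ ≤ N := by
    by_contra hlt
    push Not at hlt
    apply hc
    rw [Finset.mem_biUnion]
    refine ⟨N, Finset.mem_range.2 hlt, ?_⟩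
    rw [Finset.mem_image]
    refine ⟨x, ?_, hcx.symm⟩
    rw [Multiset.mem_toFinset, Polynomial.mem_nthRoots hfin]
    exact hxN
  have hN0 : N ≠ 0 := hfin.ne'
  obtain ⟨j, hjN, hj, hxj⟩ := (Complex.isPrimitiveRoot_iff x N hN0).1 hprim
  obtain ⟨p, hp, hpε, hpN, hpj⟩ := hN₀ N hNN j hj
  -- u = p * j⁻¹
  obtain ⟨j', hj'⟩ : ∃ j' : ℕ, j * j' ≡ 1 [MOD N] := by
    rcases Nat.eq_or_lt_of_le (Nat.one_le_iff_ne_zero.2 hN0) with h | h
    · exact ⟨0, by rw [← h]; exact Nat.modEq_one⟩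
    · obtain ⟨j', hj'⟩ := Nat.exists_mul_mod_eq_one_of_coprime hj h
      exact ⟨j', by rw [Nat.ModEq, hj'.2, Nat.mod_eq_of_lt h]⟩
  have hj'c : Nat.Coprime j' N := by
    have h1 : Nat.gcd (j * j') N = Nat.gcd 1 N := hj'.gcd_eq
    rw [Nat.gcd_one_left] at h1
    exact Nat.Coprime.coprime_mul_left (k := j) h1
  have huN : Nat.Coprime (p * j') N := Nat.Coprime.mul_left hpN hj'c
  have hgN : Nat.gcd N f ∣ N := Nat.gcd_dvd_left _ _
  have hu1 : p * j' ≡ 1 [MOD Nat.gcd N f] :=
    (hpj.mul_right j').trans (hj'.of_dvd hgN)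
  -- transport of the pole
  have hpole : Polynomial.aeval c (QK i).denom = 0 := by
    rw [← bc_denom hbc]
    have : bc (QK i) = Q i := congrFun hQeq i
    rw [this]
    by_contra h
    exact hnot h
  set P : K[X] := (QK i).denom.comp (Polynomial.C (1 / 2) * (Polynomial.X + Polynomial.X ^ (N - 1)))
    with hP
  have hev : ∀ y : ℂ, y ^ N = 1 → Polynomial.aeval y P = Polynomial.aeval ((y + y⁻¹) / 2) (QK i).denom := by
    intro y hy
    have hyi : y⁻¹ = y ^ (N - 1) := by
      have hy0 : y ≠ 0 := by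
        rintro rfl
        rw [zero_pow hN0] at hy
        exact zero_ne_one hy
      apply inv_eq_of_mul_eq_one_right
      rw [← pow_succ', Nat.sub_add_cancel (by omega), hy]
    rw [hP, Polynomial.aeval_comp, hyi]
    congr 1
    simp only [map_mul, map_add, Polynomial.aeval_C, Polynomial.aeval_X, map_pow]
    have : (algebraMap K ℂ) (1 / 2) = 1 / 2 := by
      rw [map_div₀, map_one, map_ofNat]
    rw [this]
    ring
  have hx1 : Polynomial.aeval x P = 0 := by rw [hev x hxN, ← hcx]; exact hpole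
  have hx2 := hF N hfin x hprim (p * j') huN hu1 P hx1
  have hyN : (x ^ (p * j')) ^ N = 1 := by
    rw [← pow_mul, mul_comm, pow_mul, hxN, one_pow]
  rw [hev _ hyN] at hx2
  -- the new point
  have hy : x ^ (p * j') = Complex.exp (Complex.I * ((Real.pi * (2 * p : ℕ) / N : ℝ) : ℂ)) := by
    set ζ := Complex.exp (2 * Real.pi * Complex.I * (1 / N)) with hζ
    have hNc : (N : ℂ) ≠ 0 := by exact_mod_cast hN0
    have hζx : ζ ^ j = x := by
      rw [← hxj, hζ, ← Complex.exp_nat_mul]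
      congr 1
      ring
    have hζN : ζ ^ N = 1 := by
      rw [hζ, ← Complex.exp_nat_mul]
      have : (N : ℂ) * (2 * Real.pi * Complex.I * (1 / N)) = 2 * Real.pi * Complex.I := by
        field_simp
      rw [this, Complex.exp_two_pi_mul_I]
    have hmod : j * (p * j') ≡ p [MOD N] := by
      calc j * (p * j') = p * (j * j') := by ring
        _ ≡ p * 1 [MOD N] := hj'.mul_left p
        _ = p := mul_one p
    have hpow : ∀ A B : ℕ, A ≡ B [MOD N] → ζ ^ A = ζ ^ B := by
      intro A B hAB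
      rw [pow_eq_pow_mod A hζN, pow_eq_pow_mod B hζN, hAB]
    rw [← hζx, ← pow_mul, hpow _ _ hmod, hζ, ← Complex.exp_nat_mul]
    congr 1
    push_cast
    ring
  rw [hy, exp_half] at hx2
  have hcc : ((Real.cos (Real.pi * (2 * p : ℕ) / N) : ℝ) : ℂ) = cc (2 * p) N := rfl
  rw [hcc, ← bc_denom hbc] at hx2
  have hQi : bc (QK i) = Q i := congrFun hQeq i
  rw [hQi] at hx2
  refine hreg (2 * p) N (by omega) hfin ?_ i hx2
  have hNr : (0 : ℝ) < N := by exact_mod_cast hfin
  rw [div_lt_iff₀ hNr]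
  push_cast
  linarith

end Vale.Agent.P097.D2
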