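import Vale.Agent.P097.H323.D2.Asm
import Vale.Agent.P097.H896.D3.F2
import Vale.Agent.P097.H807.D2.F1
import Vale.Agent.P097.H917D.Orbit

/-! # P097 / Disc : [D2] (helper323, 807, 896, 917) -/

namespace Vale.Agent.P097.D2

/-- **Block [D2].** -/
theorem d2 : Disc.D2 :=
  d2_of f1 H896.D3.f2 H896.D3.bc H896.D3.pole H917D.reg

end Vale.Agent.P097.D2
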