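import Vale.Agent.P097.Disc.Defs

/-! # P097 / Disc / D2 : internal interfaces (helper323, helper807) -/

set_option linter.all false

open Polynomial

namespace Vale.Agent.P097.D2

open Vale.Agent.P097.Disc

/-- [F1] (807) a finitely generated field has large cyclotomic Galois groups: `s ↦ s ^ u` preserves
the polynomial relations over `K` as soon as `u ≡ 1` modulo `gcd N f`. -/
def F1 : Prop :=
  ∀ T : Finset ℂ, ∃ f : ℕ, 0 < f ∧ ∀ N : ℕ, 0 < N → ∀ s : ℂ, IsPrimitiveRoot s N →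
    ∀ u : ℕ, Nat.Coprime u N → u ≡ 1 [MOD Nat.gcd N f] →
      ∀ P : (Subfield.closure (T : Set ℂ))[X], aeval s P = 0 → aeval (s ^ u) P = 0

/-- [F2] (807) a number which has the same rational expression over `K` in all small
`cos (π p / m)` belongs to `K` (Thue's lemma `TH` is available). -/
def F2 : Prop :=
  ∀ (K : Subfield ℂ) (m : ℕ), 1 ≤ m → ∀ n d : K[X], IsCoprime n d → ∀ w : ℂ,
    (∀ p : ℕ, 0 < p → p * p ≤ 2 * m → 
      aeval (Real.cos (Real.pi * p / m) : ℂ) n = w * aeval (Real.cos (Real.pi * p / m) : ℂ) d) →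
    w ∈ K

/-- [TH] (323) Thue's lemma -/
def TH : Prop :=
  ∀ N u : ℕ, 2 ≤ N → Nat.Coprime u N → ∃ p p' : ℕ, 0 < p ∧ 0 < p' ∧ p * p ≤ N ∧ p' * p' ≤ N ∧
    ((u * p : ℕ) ≡ p' [MOD N] ∨ (u * p + p' : ℕ) ≡ 0 [MOD N])

/-- [NT] (323) small representatives -/
def NT : Prop :=
  ∀ (f : ℕ) (ε : ℝ), 0 < f → 0 < ε → ∃ N₀ : ℕ, ∀ N : ℕ, N₀ ≤ N → ∀ j : ℕ, Nat.Coprime j N →
    ∃ p : ℕ, 0 < p ∧ (p : ℝ) < ε * N ∧ Nat.Coprime p N ∧ p ≡ j [MOD Nat.gcd N f]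

end Vale.Agent.P097.D2
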