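import Vale.Agent.P097.H323.D2.Asm
import Vale.Agent.P097.H896.D3.Base

/-! # P097 / Disc / D2 : base change (helper323, from helper896) -/

set_option linter.all false

open Polynomial

namespace Vale.Agent.P097.D2

open Vale.Agent.P097.Disc Vale.Agent.P097.H896.D3

theorem bc : BC := by
  intro K
  refine ⟨rmap K.subtype, rmap_algebraMap K.subtype, ?_⟩
  intro a Q ha hQ
  exact isLabel_rmap K.subtype ha hQ

theorem d2_of' (hF1 : F1) (hF2 : F2) (hPOLE : POLE) (hREG : REG) : Disc.D2 :=
  d2_of hF1 hF2 bc hPOLE hREG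

end Vale.Agent.P097.D2
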