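import Vale.Agent.P097.H323.D2.Defs
import Vale.Agent.P097.H896.D3.Lab

/-! # P097 / Disc / D2 : dependence of the label on the last coefficient (helper323) -/

set_option linter.all false

open Polynomial

namespace Vale.Agent.P097.D2

open Vale.Agent.P097.Disc Vale.Agent.P097.H896.D3

variable {K : Type*} [Field K]

/-- agreement up to order `n` -/
def Ag {S : Type*} [CommRing S] (n : ℕ) (f g : PowerSeries S) : Prop :=
  ∀ i ≤ n, PowerSeries.coeff i f = PowerSeries.coeff i g

namespace Ag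

variable {S : Type*} [CommRing S] {n : ℕ} {f f' g g' : PowerSeries S}

theorem refl (n : ℕ) (f : PowerSeries S) : Ag n f f := fun _ _ => rfl

theorem add (h : Ag n f f') (h' : Ag n g g') : Ag n (f + g) (f' + g') := fun i hi => by
  rw [map_add, map_add, h i hi, h' i hi]

theorem mul (h : Ag n f f') (h' : Ag n g g') : Ag n (f * g) (f' * g') := fun i hi => by
  rw [PowerSeries.coeff_mul, PowerSeries.coeff_mul]
  refine Finset.sum_congr rfl fun x hx => ?_
  have := Finset.HasAntidiagonal.mem_antidiagonal.1 hx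
  rw [h _ (by omega), h' _ (by omega)]

theorem pow (h : Ag n f f') (k : ℕ) : Ag n (f ^ k) (f' ^ k) := by
  induction k with
  | zero => simpa using refl n 1
  | succ k ih => rw [pow_succ, pow_succ]; exact ih.mul h

theorem sum {ι : Type*} (s : Finset ι) (f f' : ι → PowerSeries S) (h : ∀ i ∈ s, Ag n (f i) (f' i)) :
    Ag n (∑ i ∈ s, f i) (∑ i ∈ s, f' i) := fun j hj => by
  rw [map_sum, map_sum]
  exact Finset.sum_congr rfl fun i hi => h i hi j hj

theorem inv {F : Type*} [Field F] {n : ℕ} {f g : PowerSeries F} (h : Ag n f g) : Ag n f⁻¹ g⁻¹ := by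
  intro i
  induction i using Nat.strong_induction_on with
  | _ i ih =>
    intro hi
    have h0 : PowerSeries.constantCoeff f = PowerSeries.constantCoeff g := by
      have := h 0 (Nat.zero_le _)
      rwa [PowerSeries.coeff_zero_eq_constantCoeff_apply,
        PowerSeries.coeff_zero_eq_constantCoeff_apply] at this
    rw [PowerSeries.coeff_inv, PowerSeries.coeff_inv, h0]
    split_ifs with hn
    · rfl
    · congr 1
      refine Finset.sum_congr rfl fun x hx => ?_
      have hx' := Finset.HasAntidiagonal.mem_antidiagonal.1 hx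
      split_ifs with hx2
      · rw [h _ (by omega), ih _ hx2 (by omega)]
      · rfl

end Ag

theorem ag_subPoly {n : ℕ} {P P' : PowerSeries (RatFunc K)} (h : Ag n P P') (f : K[X]) :
    Ag n (subPoly P f) (subPoly P' f) := by
  rw [subPoly, subPoly, Polynomial.coe_eval₂RingHom, Polynomial.coe_eval₂RingHom,
    Polynomial.eval₂_eq_sum_range, Polynomial.eval₂_eq_sum_range]
  exact Ag.sum _ _ _ fun i _ => (Ag.refl _ _).mul (h.pow i)

variable [CharZero K]

theorem ag_sub {n : ℕ} {P P' : PowerSeries (RatFunc K)} (hP : PowerSeries.constantCoeff P = p0)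
    (hP' : PowerSeries.constantCoeff P' = p0) (h : Ag n P P') (f : RatFunc K) :
    Ag n (sub hP f) (sub hP' f) := by
  rw [sub_eq, sub_eq]
  exact (ag_subPoly h _).mul (ag_subPoly h _).inv

/-- pencils of tables which agree below `m` -/
theorem ag_pz {a a' : ℕ → K} {m : ℕ} (h : ∀ i < m, a i = a' i) {n : ℕ} (hn : n < m) :
    Ag n (pz a (RatFunc.X : RatFunc K)) (pz a' (RatFunc.X : RatFunc K)) := by
  intro i hi
  rw [coeff_pz, coeff_pz, Ac, Bc, Ac, Bc, h i (by omega)]

theorem Ln_lt {a a' : ℕ → K} (ha : a 0 = 1) (ha' : a' 0 = 1) {m : ℕ} (h : ∀ i < m, a i = a' i)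
    {n : ℕ} (hn : n < m) (q : Fin n → RatFunc K) : Ln ha n q = Ln ha' n q := by
  rw [Ln, Ln]
  refine Finset.sum_congr rfl fun i _ => ?_
  rw [ag_sub (cc_pz ha) (cc_pz ha') (ag_pz h hn) (q i) (n - i) (by omega)]

/-- the dependence of `L_m` on `a m` -/
theorem Ln_eq {a a' : ℕ → K} (ha : a 0 = 1) (ha' : a' 0 = 1) {m : ℕ} (hm : 1 ≤ m)
    (h : ∀ i < m, a i = a' i) (q : Fin m → RatFunc K) (hq : q ⟨0, hm⟩ = RatFunc.X) :
    Ln ha m q - Ln ha' m q = RatFunc.C (Ac a m - Ac a' m) * RatFunc.X +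
      RatFunc.C (Bc a m - Bc a' m) * RatFunc.X⁻¹ := by
  rw [Ln, Ln, ← Finset.sum_sub_distrib]
  rw [Finset.sum_eq_single (⟨0, hm⟩ : Fin m)]
  · rw [hq, sub_X, sub_X, coeff_pz, coeff_pz]
    simp only [pow_zero, one_mul, Nat.sub_zero, map_sub]
    ring
  · intro i _ hi
    have hi0 : (i : ℕ) ≠ 0 := fun h0 => hi (Fin.ext h0)
    rw [ag_sub (cc_pz ha) (cc_pz ha') (ag_pz h (by omega : m - 1 < m)) (q i) (m - i) (by omega),
      sub_self]
  · intro h0
    exact absurd (Finset.mem_univ _) h0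

/-- labels of tables which agree below `m` -/
theorem label_lt {a a' : ℕ → K} (ha : a 0 = 1) (ha' : a' 0 = 1) {m : ℕ} (h : ∀ i < m, a i = a' i)
    {Q Q' : ℕ → RatFunc K} (hQ : IsLabel a Q) (hQ' : IsLabel a' Q') : ∀ n < m, Q n = Q' n := by
  rw [isLabel_iff ha] at hQ
  rw [isLabel_iff ha'] at hQ'
  intro n
  induction n using Nat.strong_induction_on with
  | _ n ih =>
    intro hn
    rcases Nat.eq_zero_or_pos n with rfl | hn0
    · rw [hQ.1, hQ'.1]
    · have h1 := hQ.2 n hn0
      have h2 := hQ'.2 n hn0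
      have h3 : (fun i : Fin n => Q' i) = fun i : Fin n => Q i := by
        funext i
        exact (ih i i.2 (by omega)).symm
      rw [h3, known, ← Ln_lt ha ha' h hn] at h2
      rw [known, ← h2] at h1
      exact sub0_injective (mul_right_cancel₀ (ex_en (K := K) hn0).1 h1)

theorem label_diff_en {a a' : ℕ → K} (ha : a 0 = 1) (ha' : a' 0 = 1) {m : ℕ} (hm : 1 ≤ m)
    (h : ∀ i < m, a i = a' i) {Q Q' : ℕ → RatFunc K} (hQ : IsLabel a Q) (hQ' : IsLabel a' Q') :
    sub0 (Q m - Q' m) * en m = - RatFunc.C ((m : K) * (a m - a' m)) * en 1 := by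
  have hlt := label_lt ha ha' h hQ hQ'
  rw [isLabel_iff ha] at hQ
  rw [isLabel_iff ha'] at hQ'
  have h1 := hQ.2 m hm
  have h2 := hQ'.2 m hm
  have h3 : (fun i : Fin m => Q' i) = fun i : Fin m => Q i := by
    funext i
    exact (hlt i i.2).symm
  rw [h3] at h2
  have h4 := Ln_eq ha ha' hm h (fun i : Fin m => Q i) hQ.1
  have h5 : iota (Ln ha m fun i : Fin m => Q i) - iota (Ln ha' m fun i : Fin m => Q i) =
      RatFunc.C (Ac a m - Ac a' m) * RatFunc.X⁻¹ + RatFunc.C (Bc a m - Bc a' m) * RatFunc.X := by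
    rw [← map_sub, h4, map_add, map_mul, map_mul, map_inv₀, iota_C, iota_C, iota_X, inv_inv]
  have e1 : (m : K) * (a m - a' m) = (Ac a m - Ac a' m) - (Bc a m - Bc a' m) := by
    rw [Ac, Ac, Bc, Bc]; ring
  rw [e1, map_sub RatFunc.C, en, en]
  rw [known, en] at h1 h2
  rw [map_sub, pow_one, pow_one]
  linear_combination h1 - h2 - h4 + h5

/-- Chebyshev polynomials of the second kind -/
noncomputable abbrev Un (n : ℕ) : K[X] := Polynomial.Chebyshev.U K (n : ℤ)

theorem sub0_Un (n : ℕ) : sub0 (algebraMap K[X] (RatFunc K) (Un n)) * en 1 = en (n + 1) := by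
  have hX : (RatFunc.X : RatFunc K) ≠ 0 := RatFunc.X_ne_zero
  have h2 : (2 : RatFunc K) * p0 = RatFunc.X + RatFunc.X⁻¹ := by
    rw [← two_p0]
    congr 1
    rw [map_ofNat]
  induction n using Nat.strong_induction_on with
  | _ n ih =>
    match n with
    | 0 => simp [Un]
    | 1 =>
      have : Un (K := K) 1 = 2 * Polynomial.X := by simp [Un]
      rw [this, map_mul, map_mul, RatFunc.algebraMap_X, sub0_X, map_ofNat, map_ofNat, h2, en, en]
      ring
    | (n + 2) =>
      have e : Un (K := K) (n + 2) = 2 * Polynomial.X * Un (n + 1) - Un n := by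
        have := Polynomial.Chebyshev.U_add_two K (n : ℤ)
        simpa [Un] using this
      have i1 := ih (n + 1) (by omega)
      have i0 := ih n (by omega)
      rw [e, map_sub, map_sub, map_mul, map_mul, map_mul, map_mul, RatFunc.algebraMap_X, sub0_X,
        map_ofNat, map_ofNat, h2]
      have : (RatFunc.X + RatFunc.X⁻¹ : RatFunc K) * en (n + 1 + 1) - en (n + 1) = en (n + 2 + 1) := by
        have hXX : (RatFunc.X : RatFunc K) * RatFunc.X⁻¹ = 1 := mul_inv_cancel₀ hX
        simp only [en]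
        linear_combination (RatFunc.X ^ (n + 1) - RatFunc.X⁻¹ ^ (n + 1) : RatFunc K) * hXX
      rw [← this, ← i1, ← i0]
      ring

theorem label_diff {a a' : ℕ → K} (ha : a 0 = 1) (ha' : a' 0 = 1) {m : ℕ} 
    (h : ∀ i < m + 1, a i = a' i) {Q Q' : ℕ → RatFunc K} (hQ : IsLabel a Q) (hQ' : IsLabel a' Q') :
    (Q (m + 1) - Q' (m + 1)) * algebraMap K[X] (RatFunc K) (Un m) =
      - RatFunc.C (((m + 1 : ℕ) : K) * (a (m + 1) - a' (m + 1))) := by
  apply sub0_injective
  have h1 := label_diff_en ha ha' (Nat.succ_le_succ (Nat.zero_le m)) h hQ hQ'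
  rw [← sub0_Un, ← mul_assoc] at h1
  rw [map_mul, map_neg, sub0_C]
  exact mul_right_cancel₀ (ex_en (K := K) le_rfl).1 h1

end Vale.Agent.P097.D2
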